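import Vale.Agent.P181.LF.Union
import Vale.Agent.P181.BAL.H976.TwoD

set_option autoImplicit false

/-!
# P181, LF: the theorem for `b ≥ C a` without `θ`

Every shape except `λ_2 ^ 2 D < C a ^ 5`, `b - a + 1 < D < a polylog`, `a ^ 2 < w polylog`,
where `D = λ_3 + λ_4 + ⋯` and `w = λ_2 + D`. The labels of `BAL.CoreD` are spread over
`r ~ sqrt (D / a)` intervals.
-/

open Finset

namespace Vale.Agent.P181.LF.H540

open Vale.Agent.P181.H280 (plethMult)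
open Vale.Agent.P181.T4 (ex)
open Vale.Agent.P181.PL (dn PolyS)
open Vale.Agent.P181.LF

/-- `b ≥ C a`: every shape except `a ^ 2 / polylog < w`, `λ_2 ^ 2 D < C a ^ 5`,
`b - a + 1 < D < a polylog`. -/
def LinSharp : Prop := ∃ (C : ℝ) (c : ℕ), 1 ≤ C ∧ ∀ a b : ℕ, C * a ≤ b →
  ∀ (n : ℕ) (lam : Fin n → ℕ),
  (C * (1 + Real.log a) ^ c * (dn lam 1 : ℝ) ≤ (a : ℝ) ^ 2 ∨
    C * (a : ℝ) ^ 5 ≤ (ex lam 1 : ℝ) ^ 2 * (dn lam 2 : ℝ) ∨
    C * (1 + Real.log a) ^ c * a ≤ (dn lam 2 : ℝ) ∨ a + dn lam 2 ≤ b + 1) →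
  plethMult a b n lam ≤ plethMult b a n lam

/-- `driveD` for short tails, `q = 5`, `m = 25 r`. -/
theorem drive5 (hC : BAL.CoreD) {a b k r : ℕ} {lam : Fin (k + 3) → ℕ}
    (hsum : ∑ i, lam i = a * b) (h1 : 16 * TL.dn2 lam < a ^ 2) (hr : 4 ≤ r)
    (hbig : 375000000 * r ^ 4 ≤ a) (hs : 100000000 * r ^ 2 * a ≤ TL.dn2 lam)
    (hlam1 : r * lam 2 + 4 * a ^ 2 ≤ r * lam 1) (hlam0 : lam 1 ≤ lam 0)
    (hbt : b ≤ TL.dn2 lam + a) (h1000a : 1000 * a ≤ b) (h1000t : 1000 * TL.dn2 lam ≤ a * b) :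
    plethMult a b (k + 3) lam ≤ plethMult b a (k + 3) lam := by
  have ha : 0 < a := by
    rcases Nat.eq_zero_or_pos a with h | h
    · rw [h] at h1
      simp at h1
    · exact h
  refine BAL.H976.driveD hC (q := 5) (m := 25 * r) (r := r) hsum ha ?_ (by omega) (by omega) hr
    ?_ ?_ hlam1 hlam0 hbt h1000a h1000t
  · rw [Nat.div_eq_of_lt h1]
  · calc 12 * (r * (4 * (25 * r) * 5 ^ 2)) ^ 2 * 5 = 375000000 * r ^ 4 := by ring
      _ ≤ a := hbig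
  · rw [Nat.le_div_iff_mul_le ha]
    calc 16 * (4 * (25 * r) * 5 ^ 2) ^ 2 * a = 100000000 * r ^ 2 * a := by ring
      _ ≤ TL.dn2 lam := hs

lemma dn2_eq {k : ℕ} (lam : Fin (k + 3) → ℕ) : TL.dn2 lam = dn lam 2 := by
  unfold TL.dn2 dn
  conv_rhs => rw [Fin.sum_univ_succ, Fin.sum_univ_succ]
  simp

/-- The choice of `r`. -/
lemma exists_r {a D l : ℕ} {P C : ℝ} (ha : 0 < a) (hPa : 16 * P ^ 2 ≤ a)
    (hC : 256 * 10 ^ 8 ≤ C) (h16 : 16 * (100000000 * a) ≤ D) (hD : (D : ℝ) < P * a)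
    (hl : C * (a : ℝ) ^ 5 ≤ (l : ℝ) ^ 2 * D) :
    ∃ r : ℕ, 4 ≤ r ∧ 375000000 * r ^ 4 ≤ a ∧ 100000000 * r ^ 2 * a ≤ D ∧ 8 * a ^ 2 ≤ r * l := by
  obtain ⟨N, hN⟩ : ∃ N, N = 100000000 * a := ⟨_, rfl⟩
  have hN0 : 0 < N := by omega
  obtain ⟨r, hr⟩ : ∃ r, r = Nat.sqrt (D / N) := ⟨_, rfl⟩
  have e1 : r * r ≤ D / N := by
    rw [hr]
    exact Nat.sqrt_le _
  have e2 : D / N < (r + 1) * (r + 1) := by
    rw [hr]
    exact Nat.lt_succ_sqrt _
  have e3 : r * r * N ≤ D := (Nat.le_div_iff_mul_le hN0).1 e1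
  have e4 : D < (r + 1) * (r + 1) * N := (Nat.div_lt_iff_lt_mul hN0).1 e2
  have e5 : 4 ≤ r := by
    rw [hr]
    refine Nat.le_sqrt.2 ?_
    rw [Nat.le_div_iff_mul_le hN0, hN]
    omega
  have e6 : (r + 1) * (r + 1) ≤ 4 * (r * r) := by nlinarith
  have e7 : D ≤ 4 * (r * r) * N := e4.le.trans (Nat.mul_le_mul_right _ e6)
  have haR : (0 : ℝ) < a := by exact_mod_cast ha
  have hNR : (N : ℝ) = 10 ^ 8 * a := by
    rw [hN]
    push_cast
    norm_num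
  have e3R : (r : ℝ) * r * (10 ^ 8 * a) ≤ D := by
    rw [← hNR]
    exact_mod_cast e3
  have e7R : (D : ℝ) ≤ 4 * (r * r) * (10 ^ 8 * a) := by
    rw [← hNR]
    exact_mod_cast e7
  have e8 : (r : ℝ) * r * 10 ^ 8 ≤ P := by
    have h : (r : ℝ) * r * 10 ^ 8 * a ≤ P * a := by nlinarith
    exact le_of_mul_le_mul_right h haR
  refine ⟨r, e5, ?_, ?_, ?_⟩
  · have h1 : (375000000 * (r : ℝ) ^ 4) ≤ a := by
      have h2 : (0 : ℝ) ≤ (r : ℝ) * r * 10 ^ 8 := by positivity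
      have h3 : ((r : ℝ) * r * 10 ^ 8) ^ 2 ≤ P ^ 2 := pow_le_pow_left₀ h2 e8 2
      have h4 : (0 : ℝ) ≤ (r : ℝ) ^ 4 := by positivity
      have h5 : ((r : ℝ) * r * 10 ^ 8) ^ 2 = 10 ^ 16 * (r : ℝ) ^ 4 := by ring
      rw [h5] at h3
      nlinarith
    exact_mod_cast h1
  · calc 100000000 * r ^ 2 * a = r * r * N := by rw [hN]; ring
      _ ≤ D := e3
  · have h1 : C * (a : ℝ) ^ 5 ≤ (l : ℝ) ^ 2 * (4 * (r * r) * (10 ^ 8 * a)) :=
      hl.trans (mul_le_mul_of_nonneg_left e7R (by positivity))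
    have h2 : (256 * 10 ^ 8 : ℝ) * (a : ℝ) ^ 5 ≤ (l : ℝ) ^ 2 * (4 * (r * r) * (10 ^ 8 * a)) :=
      le_trans (mul_le_mul_of_nonneg_right hC (by positivity)) h1
    have h3 : (8 * (a : ℝ) ^ 2) ^ 2 ≤ ((r : ℝ) * l) ^ 2 := by
      have h4 : (8 * (a : ℝ) ^ 2) ^ 2 * (4 * 10 ^ 8 * a) ≤
          ((r : ℝ) * l) ^ 2 * (4 * 10 ^ 8 * a) := by
        calc (8 * (a : ℝ) ^ 2) ^ 2 * (4 * 10 ^ 8 * a) = (256 * 10 ^ 8 : ℝ) * (a : ℝ) ^ 5 := by ring
          _ ≤ (l : ℝ) ^ 2 * (4 * (r * r) * (10 ^ 8 * a)) := h2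
          _ = ((r : ℝ) * l) ^ 2 * (4 * 10 ^ 8 * a) := by ring
      exact le_of_mul_le_mul_right h4 (by positivity)
    have h5 : 8 * (a : ℝ) ^ 2 ≤ (r : ℝ) * l :=
      (pow_le_pow_iff_left₀ (by positivity) (by positivity) (by norm_num)).1 h3
    exact_mod_cast h5

/-- The sharp form. -/
theorem linSharp_of (hL : LinFull) (hC : BAL.CoreD) (hP : PolyS) : LinSharp := by
  obtain ⟨C1, c1, hC1, h1⟩ := hL 1 one_pos
  obtain ⟨C2, hC2⟩ : ∃ x : ℝ, x = max C1 1 := ⟨_, rfl⟩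
  have k1 : C1 ≤ C2 := hC2 ▸ le_max_left _ _
  have k2 : 1 ≤ C2 := hC2 ▸ le_max_right _ _
  obtain ⟨A0, hA0⟩ := polylog_le (16 * C2 ^ 2) (2 * c1)
  obtain ⟨A, hAa, hA1⟩ : ∃ A, A0 ≤ A ∧ 1 ≤ A := ⟨max A0 1, le_max_left _ _, le_max_right _ _⟩
  obtain ⟨C3, hC3, h3⟩ := small_a hP A
  refine ⟨C2 + C3 + 256 * 10 ^ 8, c1, by linarith, fun a b hab n lam hor => ?_⟩
  have ha0 : (0 : ℝ) ≤ a := Nat.cast_nonneg a
  have g3 : C3 * a ≤ b := le_trans (mul_le_mul_of_nonneg_right (by linarith) ha0) hab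
  have g1 : C1 * a ≤ b := le_trans (mul_le_mul_of_nonneg_right (by linarith) ha0) hab
  have g4 : (256 * 10 ^ 8 : ℝ) * a ≤ b :=
    le_trans (mul_le_mul_of_nonneg_right (by linarith) ha0) hab
  rcases Nat.lt_or_ge a A with haA | haA
  · exact h3 a b haA g3 n lam
  by_cases hz : plethMult a b n lam = 0
  · rw [hz]
    exact Nat.zero_le _
  obtain ⟨hl, hs, _⟩ := H530.zero_stmt a b n lam hz
  have hT := one_le_L a
  have hap : 0 < a := by omega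
  have haR : (0 : ℝ) < a := by exact_mod_cast hap
  have hTc : 1 ≤ (1 + Real.log (a : ℝ)) ^ c1 := one_le_pow₀ hT
  obtain ⟨P, hPd⟩ : ∃ P : ℝ, P = C2 * (1 + Real.log a) ^ c1 := ⟨_, rfl⟩
  have hP1 : 1 ≤ P := by
    rw [hPd]
    have := mul_le_mul k2 hTc zero_le_one (by linarith)
    linarith
  have hPa : 16 * P ^ 2 ≤ a := by
    have h := hA0 a (hAa.trans haA)
    have e : 16 * P ^ 2 = 16 * C2 ^ 2 * (1 + Real.log a) ^ (2 * c1) := by
      rw [hPd]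
      ring
    rw [e]
    exact h
  have hm : C1 * (1 + Real.log a) ^ c1 ≤ P := by
    rw [hPd]
    exact mul_le_mul_of_nonneg_right k1 (by linarith)
  by_cases a1 : C1 * (1 + Real.log a) ^ c1 * a ≤ (dn lam 2 : ℝ)
  · exact h1 a b g1 n lam (Or.inr (Or.inr (Or.inl a1)))
  by_cases a2 : C1 * (1 + Real.log a) ^ c1 * (dn lam 1 : ℝ) ≤ (a : ℝ) ^ 2
  · exact h1 a b g1 n lam (Or.inr (Or.inl a2))
  by_cases a3 : a + dn lam 2 ≤ b + 1
  · exact h1 a b g1 n lam (Or.inr (Or.inr (Or.inr a3)))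
  rw [not_le] at a1 a2 a3
  have hm2 : C1 * (1 + Real.log a) ^ c1 ≤ (C2 + C3 + 256 * 10 ^ 8) * (1 + Real.log a) ^ c1 :=
    mul_le_mul_of_nonneg_right (by linarith) (by linarith)
  have key : (C2 + C3 + 256 * 10 ^ 8) * (a : ℝ) ^ 5 ≤ (ex lam 1 : ℝ) ^ 2 * (dn lam 2 : ℝ) := by
    rcases hor with h | h | h | h
    · exact absurd (le_trans (mul_le_mul_of_nonneg_right hm2 (Nat.cast_nonneg _)) h)
        (not_le.2 a2)
    · exact h
    · exact absurd (le_trans (mul_le_mul_of_nonneg_right hm2 ha0) h) (not_le.2 a1)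
    · exact absurd h (not_le.2 a3)
  have hD1 : (dn lam 2 : ℝ) < P * a := lt_of_lt_of_le a1 (mul_le_mul_of_nonneg_right hm ha0)
  have hw : (a : ℝ) ^ 2 < P * (dn lam 1 : ℝ) :=
    lt_of_lt_of_le a2 (mul_le_mul_of_nonneg_right hm (Nat.cast_nonneg _))
  have g4N : 25600000000 * a ≤ b := by
    have : ((25600000000 * a : ℕ) : ℝ) ≤ b := by
      push_cast
      linarith
    exact_mod_cast this
  have h16 : 16 * (100000000 * a) ≤ dn lam 2 := by omega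
  obtain ⟨r, r1, r2, r3, r4⟩ := exists_r hap hPa (by linarith) h16 hD1 key
  -- three rows
  have hn : 3 ≤ n := by
    by_contra hcon
    have : dn lam 2 = 0 := by
      rw [dn_range]
      refine sum_eq_zero fun j hj => ?_
      have := mem_range.1 hj
      rw [if_neg (by omega)]
    omega
  obtain ⟨k, rfl⟩ : ∃ k, n = k + 3 := ⟨n - 3, by omega⟩
  have e2 : ex lam 2 = lam 2 := ex_coe lam 2
  have e1 : ex lam 1 = lam 1 := ex_coe lam 1
  have e3 := dn2_eq lam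
  have e4 : dn lam 1 = ex lam 1 + dn lam 2 := dn_succ lam 1
  have e5 : dn lam 2 = ex lam 2 + dn lam 3 := dn_succ lam 2
  have hP2 : P ≤ P ^ 2 := by nlinarith
  have h16D : 16 * dn lam 2 < a ^ 2 := by
    have : (16 * dn lam 2 : ℝ) < (a : ℝ) ^ 2 := by
      have h5 : 16 * P * a ≤ a * a := mul_le_mul_of_nonneg_right (by linarith) ha0
      nlinarith
    exact_mod_cast this
  have hl2 : 2 * lam 2 ≤ lam 1 := by
    have h5 : (P : ℝ) * (2 * (P * a)) ≤ P * (lam 1 : ℝ) := by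
      have h6 : (dn lam 1 : ℝ) = (lam 1 : ℝ) + dn lam 2 := by
        rw [e4, e1]
        push_cast
        ring
      rw [h6] at hw
      have h7 : P * (dn lam 2 : ℝ) ≤ P * (P * a) :=
        mul_le_mul_of_nonneg_left hD1.le (by linarith)
      have h8 : 3 * P ^ 2 * a ≤ a * a := mul_le_mul_of_nonneg_right (by nlinarith) ha0
      nlinarith
    have h9 : 2 * (P * a) ≤ (lam 1 : ℝ) := le_of_mul_le_mul_left h5 (by linarith)
    have h10 : (lam 2 : ℝ) ≤ dn lam 2 := by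
      rw [e5, e2]
      push_cast
      linarith [(Nat.cast_nonneg (dn lam 3) : (0 : ℝ) ≤ _)]
    have h11 : ((2 * lam 2 : ℕ) : ℝ) ≤ lam 1 := by
      push_cast
      linarith
    exact_mod_cast h11
  rw [e1] at r4
  refine drive5 hC hs (by rw [e3]; exact h16D) r1 r2 (by rw [e3]; exact r3) ?_
    (hl (Fin.zero_le _)) (by rw [e3]; omega) (by omega) ?_
  · have h5 : 2 * (r * lam 2) ≤ r * lam 1 := by
      calc 2 * (r * lam 2) = r * (2 * lam 2) := by ring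
        _ ≤ r * lam 1 := Nat.mul_le_mul_left _ hl2
    omega
  · rw [e3]
    have h5 : a * (1000 * a) ≤ a * b := Nat.mul_le_mul_left _ (by omega)
    have h6 : a * (1000 * a) = 1000 * a ^ 2 := by ring
    omega

end Vale.Agent.P181.LF.H540
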