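import Vale.Agent.P181.LF.H540.Sharp

set_option autoImplicit false

/-!
# P181, LF: two long rows, `b ≥ 1000 a`, `D ≥ C a`, `λ_2 ^ 2 D ≥ C a ^ 5`
-/

open Finset

namespace Vale.Agent.P181.LF.H540

open Vale.Agent.P181.H280 (plethMult)
open Vale.Agent.P181.T4 (ex)
open Vale.Agent.P181.PL (dn PolyS)
open Vale.Agent.P181.LF

/-- A tail with at least `a polylog` cells, `b ≥ 1000 a`. -/
def LongT : Prop := ∃ (C : ℝ) (c : ℕ), 0 < C ∧ ∀ a b : ℕ, 1000 * a ≤ b →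
  ∀ (n : ℕ) (lam : Fin n → ℕ), C * (1 + Real.log a) ^ c * a ≤ (dn lam 2 : ℝ) →
  plethMult a b n lam ≤ plethMult b a n lam

/-- Few cells below the first row (`LinS`). -/
def ShortW : Prop := ∃ (C : ℝ) (c : ℕ), 0 < C ∧ ∀ a b : ℕ, 5 * a ≤ b →
  ∀ (n : ℕ) (lam : Fin n → ℕ), C * (1 + Real.log a) ^ c * (dn lam 1 : ℝ) ≤ (a : ℝ) ^ 2 →
  plethMult a b n lam ≤ plethMult b a n lam

/-- Two long rows, `b ≥ 1000 a`. -/
def SharpK : Prop := ∃ C : ℝ, 1 ≤ C ∧ ∀ a b : ℕ, 1000 * a ≤ b →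
  ∀ (n : ℕ) (lam : Fin n → ℕ), C * a ≤ (dn lam 2 : ℝ) →
  C * (a : ℝ) ^ 5 ≤ (ex lam 1 : ℝ) ^ 2 * (dn lam 2 : ℝ) →
  plethMult a b n lam ≤ plethMult b a n lam

/-- The form with `b ≥ 1000 a`. -/
theorem sharpK_of (hN : LongT) (hS : ShortW) (hF : FewA) (hC : BAL.CoreD) (hP : PolyS) :
    SharpK := by
  obtain ⟨N1, n1, hN1, h1⟩ := hN
  obtain ⟨S1, s1, hS1, h2⟩ := hS
  obtain ⟨C2, hC2⟩ : ∃ x : ℝ, x = max (max N1 S1) 1 := ⟨_, rfl⟩
  have k1 : N1 ≤ C2 := hC2 ▸ (le_max_left _ _).trans (le_max_left _ _)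
  have k2 : S1 ≤ C2 := hC2 ▸ (le_max_right _ _).trans (le_max_left _ _)
  have k3 : 1 ≤ C2 := hC2 ▸ le_max_right _ _
  obtain ⟨A0, hA0⟩ := polylog_le (16 * C2 ^ 2) (2 * (n1 + s1))
  obtain ⟨A, hAa, hA1⟩ : ∃ A, A0 ≤ A ∧ 1 ≤ A := ⟨max A0 1, le_max_left _ _, le_max_right _ _⟩
  obtain ⟨C3, hC3, h3⟩ := small_a hP A
  have hAR : (1 : ℝ) ≤ A := by exact_mod_cast hA1
  have hCA : 0 ≤ C3 * A := by positivity
  refine ⟨C3 * A + 256 * 10 ^ 8, by linarith, fun a b hab n lam hD hkey => ?_⟩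
  have ha0 : (0 : ℝ) ≤ a := Nat.cast_nonneg a
  by_cases hz : plethMult a b n lam = 0
  · rw [hz]
    exact Nat.zero_le _
  obtain ⟨hl, hs, _⟩ := H530.zero_stmt a b n lam hz
  rcases Nat.eq_zero_or_pos a with h0 | hap
  · subst h0
    exact h3 0 b (by omega) (by simp) n lam
  have haR : (0 : ℝ) < a := by exact_mod_cast hap
  have hDle : dn lam 2 ≤ a * b := by
    rw [← hs]
    unfold dn
    refine sum_le_sum fun i _ => ?_
    split_ifs
    · exact le_rfl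
    · exact Nat.zero_le _
  have hDR : (dn lam 2 : ℝ) ≤ a * b := by exact_mod_cast hDle
  rcases Nat.lt_or_ge a A with haA | haA
  · refine h3 a b haA ?_ n lam
    have h5 : (C3 * A) * a ≤ b * a := by
      have h6 : C3 * A * a ≤ (C3 * A + 256 * 10 ^ 8) * a :=
        mul_le_mul_of_nonneg_right (by linarith) ha0
      linarith
    have h7 : C3 * A ≤ b := le_of_mul_le_mul_right h5 haR
    have h8 : C3 * (a : ℝ) ≤ C3 * A :=
      mul_le_mul_of_nonneg_left (by exact_mod_cast haA.le) hC3.le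
    linarith
  have hT := one_le_L a
  obtain ⟨P, hPd⟩ : ∃ P : ℝ, P = C2 * (1 + Real.log a) ^ (n1 + s1) := ⟨_, rfl⟩
  have hTc : 1 ≤ (1 + Real.log (a : ℝ)) ^ (n1 + s1) := one_le_pow₀ hT
  have hP1 : 1 ≤ P := by
    rw [hPd]
    have := mul_le_mul k3 hTc zero_le_one (by linarith)
    linarith
  have hPa : 16 * P ^ 2 ≤ a := by
    have h := hA0 a (hAa.trans haA)
    have e : 16 * P ^ 2 = 16 * C2 ^ 2 * (1 + Real.log a) ^ (2 * (n1 + s1)) := by
      rw [hPd]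
      ring
    rw [e]
    exact h
  have m1 : N1 * (1 + Real.log a) ^ n1 ≤ P := by
    rw [hPd]
    exact pow_mono_c hT hN1.le k1 (Nat.le_add_right _ _)
  have m2 : S1 * (1 + Real.log a) ^ s1 ≤ P := by
    rw [hPd]
    exact pow_mono_c hT hS1.le k2 (Nat.le_add_left _ _)
  by_cases a1 : N1 * (1 + Real.log a) ^ n1 * a ≤ (dn lam 2 : ℝ)
  · exact h1 a b hab n lam a1
  by_cases a2 : S1 * (1 + Real.log a) ^ s1 * (dn lam 1 : ℝ) ≤ (a : ℝ) ^ 2
  · exact h2 a b (by omega) n lam a2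
  by_cases a3 : dn lam 2 + a ≤ b + 1
  · exact hF a b n lam (by omega) a3
  rw [not_le] at a1 a2 a3
  have hD1 : (dn lam 2 : ℝ) < P * a := lt_of_lt_of_le a1 (mul_le_mul_of_nonneg_right m1 ha0)
  have hw : (a : ℝ) ^ 2 < P * (dn lam 1 : ℝ) :=
    lt_of_lt_of_le a2 (mul_le_mul_of_nonneg_right m2 (Nat.cast_nonneg _))
  have h16 : 16 * (100000000 * a) ≤ dn lam 2 := by
    have : ((16 * (100000000 * a) : ℕ) : ℝ) ≤ dn lam 2 := by
      push_cast
      have h6 : (256 * 10 ^ 8 : ℝ) * a ≤ (C3 * A + 256 * 10 ^ 8) * a :=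
        mul_le_mul_of_nonneg_right (by linarith) ha0
      linarith
    exact_mod_cast this
  obtain ⟨r, r1, r2, r3, r4⟩ := exists_r hap hPa (by linarith) h16 hD1 hkey
  have hn : 3 ≤ n := by
    by_contra hcon
    have : dn lam 2 = 0 := by
      rw [dn_range]
      refine sum_eq_zero fun j hj => ?_
      have := mem_range.1 hj
      rw [if_neg (by omega)]
    omega
  obtain ⟨k, rfl⟩ : ∃ k, n = k + 3 := ⟨n - 3, by omega⟩
  have e2 : ex lam 2 = lam 2 := ex_coe lam 2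
  have e1 : ex lam 1 = lam 1 := ex_coe lam 1
  have e3 := dn2_eq lam
  have e4 : dn lam 1 = ex lam 1 + dn lam 2 := dn_succ lam 1
  have e5 : dn lam 2 = ex lam 2 + dn lam 3 := dn_succ lam 2
  have hP2 : P ≤ P ^ 2 := by nlinarith
  have h16D : 16 * dn lam 2 < a ^ 2 := by
    have : (16 * dn lam 2 : ℝ) < (a : ℝ) ^ 2 := by
      have h5 : 16 * P * a ≤ a * a := mul_le_mul_of_nonneg_right (by linarith) ha0
      nlinarith
    exact_mod_cast this
  have hl2 : 2 * lam 2 ≤ lam 1 := by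
    have h5 : (P : ℝ) * (2 * (P * a)) ≤ P * (lam 1 : ℝ) := by
      have h6 : (dn lam 1 : ℝ) = (lam 1 : ℝ) + dn lam 2 := by
        rw [e4, e1]
        push_cast
        ring
      rw [h6] at hw
      have h7 : P * (dn lam 2 : ℝ) ≤ P * (P * a) :=
        mul_le_mul_of_nonneg_left hD1.le (by linarith)
      have h8 : 3 * P ^ 2 * a ≤ a * a := mul_le_mul_of_nonneg_right (by nlinarith) ha0
      nlinarith
    have h9 : 2 * (P * a) ≤ (lam 1 : ℝ) := le_of_mul_le_mul_left h5 (by linarith)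
    have h10 : (lam 2 : ℝ) ≤ dn lam 2 := by
      rw [e5, e2]
      push_cast
      linarith [(Nat.cast_nonneg (dn lam 3) : (0 : ℝ) ≤ _)]
    have h11 : ((2 * lam 2 : ℕ) : ℝ) ≤ lam 1 := by
      push_cast
      linarith
    exact_mod_cast h11
  rw [e1] at r4
  refine drive5 hC hs (by rw [e3]; exact h16D) r1 r2 (by rw [e3]; exact r3) ?_
    (hl (Fin.zero_le _)) (by rw [e3]; omega) hab ?_
  · have h5 : 2 * (r * lam 2) ≤ r * lam 1 := by
      calc 2 * (r * lam 2) = r * (2 * lam 2) := by ring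
        _ ≤ r * lam 1 := Nat.mul_le_mul_left _ hl2
    omega
  · rw [e3]
    have h5 : a * (1000 * a) ≤ a * b := Nat.mul_le_mul_left _ (by omega)
    have h6 : a * (1000 * a) = 1000 * a ^ 2 := by ring
    omega

end Vale.Agent.P181.LF.H540
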